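import Vale.Agent.P196.Full.Lift.Shift
import Vale.Agent.P196.Full.Lift.Level
import Vale.Agent.P196.Full.Lift.Central.Colour

/-!
# P196: the generators from a valuation

A generator is the coefficient of its clopen set at its three colours, moved by any sum-zero
translation with the prescribed values at these colours. Additivity, change of origin and the
commutation of disjointly supported generators hold.
-/

namespace Vale.Agent.P196.Full.Lift

open Calculus Tiles
open scoped commutatorElement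

variable {n : ℕ} {Q : Type} [Group Q] {A : Amp Q n} {P : Part A.u (LTile 0)}

/-- A sum-zero translation with prescribed values at fewer than `n` colours. -/
theorem exists_vec (s : Finset (Fin n)) (hs : s.card < n) (o : Fin n → Lat) :
    ∃ f : Fin n → Lat, ∑ x, f x = 0 ∧ ∀ x ∈ s, f x = o x := by
  obtain ⟨w, hw⟩ := exists_fresh (α := Fin n) s (by simpa using hs)
  refine ⟨(fun x => if x ∈ s then o x else 0) - Pi.single w (∑ x ∈ s, o x), ?_, fun x hx => ?_⟩
  · simp [Finset.sum_sub_distrib, Finset.sum_ite_mem]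
  · have : x ≠ w := fun e => hw (e ▸ hx)
    simp [hx, this]

namespace Valuation

variable (V : Valuation A P)

/-- The moved coefficient. -/
noncomputable def valH (U : Clo Pts) (f : Fin n → Lat) : Alt n →* Q :=
  (MulAut.conj (A.lam f)).toMonoidHom.comp (V.E U)

theorem valH_apply (U : Clo Pts) (f : Fin n → Lat) (x : Alt n) :
    V.valH U f x = A.lam f * V.E U x * (A.lam f)⁻¹ := rfl

theorem valH_congr (U : Clo Pts) {f f' : Fin n → Lat} (hf : ∑ x, f x = 0) (hf' : ∑ x, f' x = 0)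
    {a b c : Fin n} (d : Dist a b c) (ha : f a = f' a) (hb : f b = f' b) (hc : f c = f' c) :
    V.valH U f (cyc a b c d) = V.valH U f' (cyc a b c d) :=
  (V.good U).lam_conj_eq d hf hf' ha hb hc

theorem valH_commutator (U : Clo Pts) (f : Fin n → Lat) {a b c d e : Fin n} (h1 : Dist a b c)
    (h2 : Dist c d e) (h : Dist c a d) (hae : a ≠ e) (hbd : b ≠ d) (hbe : b ≠ e) :
    V.valH U f (cyc c a d h) = ⁅V.valH U f (cyc a b c h1), V.valH U f (cyc c d e h2)⁆ := by
  rw [← map_commutatorElement, commutator_cyc h1 h2 h hae hbd hbe]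

theorem E_bot : V.E ⊥ = 1 := by
  refine MonoidHom.ext fun a => ?_
  have := V.union ⊥ ⊥ (by simp) a
  rw [sup_idem] at this
  exact left_eq_mul.1 this

theorem comm_disjoint {U W : Clo Pts} (h : Disjoint (U : Set Pts) (W : Set Pts)) :
    Comm (V.E U) (V.E W) := by
  have e : U ⊓ W = ⊥ := TopologicalSpace.Clopens.ext h.inter_eq
  have := V.inter U W
  rw [e, V.E_bot] at this
  exact this.comm_of_one

include V in
theorem eight_le : 8 ≤ n := A.closed.colours

/-- Disjointly coloured values commute. -/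
theorem comm_apart (U U' : Clo Pts) {f f' : Fin n → Lat} (hf : ∑ x, f x = 0)
    (hf' : ∑ x, f' x = 0) {a b c s t k : Fin n} (d : Dist a b c) (d' : Dist s t k)
    (hs : s ∉ [a, b, c]) (ht : t ∉ [a, b, c]) (hk : k ∉ [a, b, c]) :
    Commute (V.valH U f (cyc a b c d)) (V.valH U' f' (cyc s t k d')) := by
  obtain ⟨g, hg, hgv⟩ := exists_vec ({a, b, c, s, t, k} : Finset (Fin n))
    (lt_of_le_of_lt Finset.card_le_six (by have := V.eight_le; omega))
    (fun x => if x ∈ [a, b, c] then f x else f' x)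
  have e1 : V.valH U f (cyc a b c d) = V.valH U g (cyc a b c d) := by
    refine V.valH_congr U hf hg d ?_ ?_ ?_ <;> · rw [hgv _ (by simp)]; simp
  have e2 : V.valH U' f' (cyc s t k d') = V.valH U' g (cyc s t k d') := by
    refine V.valH_congr U' hf' hg d' ?_ ?_ ?_ <;> · rw [hgv _ (by simp), if_neg (by assumption)]
  rw [e1, e2, valH_apply, valH_apply]
  exact (Commute.conj_iff (A.lam g)).2 (((V.good U).csep (V.good U')) a b c d s t k d' hs ht hk)

/-- Disjointness at the shared colours. -/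
def Apart3 (U U' : Clo Pts) (f f' : Fin n → Lat) (a b c s t k : Fin n) : Prop :=
  ∀ x, x ∈ [a, b, c] → x ∈ [s, t, k] →
    Disjoint (sys.translate (f x) (U : Set Pts)) (sys.translate (f' x) (U' : Set Pts))

/-- At most one shared colour. -/
theorem comm_one (U U' : Clo Pts) {f f' : Fin n → Lat} (hf : ∑ x, f x = 0) (hf' : ∑ x, f' x = 0)
    {a b c s t k : Fin n} (d : Dist a b c) (d' : Dist s t k) (hs : s ∉ [a, b, c])
    (ht : t ∉ [a, b, c]) (hd : Apart3 U U' f f' a b c s t k) :
    Commute (V.valH U f (cyc a b c d)) (V.valH U' f' (cyc s t k d')) := by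
  by_cases hk : k ∈ [a, b, c]
  swap
  · exact V.comm_apart U U' hf hf' d d' hs ht hk
  have hn := V.eight_le
  obtain ⟨y, hy⟩ := exists_fresh (α := Fin n) {a, b, c, s, t, k}
    (lt_of_le_of_lt Finset.card_le_six (by simpa using (by omega : 6 < n)))
  obtain ⟨e, he⟩ := exists_fresh (α := Fin n) {a, b, c, s, t, k, y}
    (lt_of_le_of_lt ((Finset.card_insert_le _ _).trans (Nat.succ_le_succ Finset.card_le_six))
      (by simpa using (by omega : 7 < n)))
  simp only [Finset.mem_insert, Finset.mem_singleton, not_or] at hy he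
  obtain ⟨ya, yb, yc, ys, yt, yk⟩ := hy
  obtain ⟨ea, eb, ec, es, et, ek, ey⟩ := he
  obtain ⟨d1, d2, d3⟩ := d'
  set v : Lat := f' k - f k with hv
  obtain ⟨f₂, hf₂, h₂⟩ := exists_vec ({s, t, k, y, e} : Finset (Fin n))
    (lt_of_le_of_lt Finset.card_le_five (by omega))
    (fun x => if x = e then v else if x = y then 0 else f' x)
  have f2s : f₂ s = f' s := by rw [h₂ s (by simp)]; simp [Ne.symm es, Ne.symm ys]
  have f2t : f₂ t = f' t := by rw [h₂ t (by simp)]; simp [Ne.symm et, Ne.symm yt]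
  have f2k : f₂ k = f' k := by rw [h₂ k (by simp)]; simp [Ne.symm ek, Ne.symm yk]
  have f2e : f₂ e = v := by rw [h₂ e (by simp)]; simp
  have hX : Dist t y s := ⟨Ne.symm yt, ys, d1.symm⟩
  have hY : Dist s k e := ⟨d3, Ne.symm ek, Ne.symm es⟩
  have eh : V.valH U' f' (cyc s t k ⟨d1, d2, d3⟩) =
      ⁅V.valH U' f₂ (cyc t y s hX), V.valH U' f₂ (cyc s k e hY)⁆ := by
    rw [← V.valH_commutator U' f₂ hX hY ⟨d1, d2, d3⟩ (Ne.symm et) yk (Ne.symm ey)]
    exact V.valH_congr U' hf' hf₂ _ f2s.symm f2t.symm f2k.symm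
  obtain ⟨f₃, hf₃, h₃⟩ := exists_vec ({a, b, c, s, e} : Finset (Fin n))
    (lt_of_le_of_lt Finset.card_le_five (by omega))
    (fun x => if x = s then f' s - v else if x = e then 0 else f x)
  have hsn : a ≠ s ∧ b ≠ s ∧ c ≠ s := by
    simp only [List.mem_cons, List.not_mem_nil, or_false, not_or] at hs
    exact ⟨Ne.symm hs.1, Ne.symm hs.2.1, Ne.symm hs.2.2⟩
  have f3a : f₃ a = f a := by rw [h₃ a (by simp)]; simp [hsn.1, Ne.symm ea]
  have f3b : f₃ b = f b := by rw [h₃ b (by simp)]; simp [hsn.2.1, Ne.symm eb]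
  have f3c : f₃ c = f c := by rw [h₃ c (by simp)]; simp [hsn.2.2, Ne.symm ec]
  have f3s : f₃ s = f' s - v := by rw [h₃ s (by simp)]; simp
  have f3e : f₃ e = 0 := by rw [h₃ e (by simp)]; simp [es]
  have f3k : f₃ k = f k := by
    simp only [List.mem_cons, List.not_mem_nil, or_false] at hk
    rcases hk with q | q | q <;> rw [q] <;> assumption
  obtain ⟨g, hg, hgl⟩ := Amp.exists_transl_list v [s, k, e]
    (by simp only [List.length_cons, List.length_nil]; omega)
  let W : Clo Pts := ⟨sys.translate v (U' : Set Pts), isClopen_translate v U'.isClopen⟩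
  have eY : V.valH U' f₂ (cyc s k e hY) = V.valH W f₃ (cyc s k e hY) := by
    have hs' := V.translate U' W v rfl s k e hY g hg (hgl s (by simp)) (hgl k (by simp))
      (hgl e (by simp))
    rw [V.valH_apply W, hs', V.valH_congr U' hf₂ (f' := f₃ + g)
      (by simp [Finset.sum_add_distrib, hf₃, hg]) hY
      (by simp [f2s, f3s, hgl s]) (by simp [f2k, f3k, hgl k, hv])
      (by simp [f2e, f3e, hgl e]), valH_apply, A.lam_add f₃ g hf₃ hg]
    group
  have hdis : Disjoint (U : Set Pts) (W : Set Pts) := by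
    refine Set.disjoint_left.2 fun x hxU hxW => ?_
    have h0 := Set.disjoint_left.1 (hd k hk (by simp))
    refine h0 (a := sys.sh (f k) x) ?_ ?_
    · rw [Sys.mem_translate, sys.sh_neg_cancel]; exact hxU
    · rw [Sys.mem_translate, sys.sh_sh, show -(f' k) + f k = -v by rw [hv]; abel]
      exact hxW
  have cY : Commute (V.valH U f (cyc a b c d)) (V.valH U' f₂ (cyc s k e hY)) := by
    rw [eY, V.valH_congr U hf hf₃ d f3a.symm f3b.symm f3c.symm, valH_apply, valH_apply]
    exact (Commute.conj_iff (A.lam f₃)).2 (V.comm_disjoint hdis _ _)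
  have cX : Commute (V.valH U f (cyc a b c d)) (V.valH U' f₂ (cyc t y s hX)) :=
    V.comm_apart U U' hf hf₂ d hX ht (by simp [ya, yb, yc]) hs
  rw [eh, commutatorElement_def]
  exact ((cX.mul_right cY).mul_right cX.inv_right).mul_right cY.inv_right

/-- The first colour is not shared. -/
theorem comm_two (U U' : Clo Pts) {f f' : Fin n → Lat} (hf : ∑ x, f x = 0) (hf' : ∑ x, f' x = 0)
    {a b c x y z : Fin n} (d : Dist a b c) (d' : Dist x y z) (hx : x ∉ [a, b, c])
    (hd : Apart3 U U' f f' a b c x y z) :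
    Commute (V.valH U f (cyc a b c d)) (V.valH U' f' (cyc x y z d')) := by
  have hn := V.eight_le
  obtain ⟨u, hu⟩ := exists_fresh (α := Fin n) {a, b, c, x, y, z}
    (lt_of_le_of_lt Finset.card_le_six (by simpa using (by omega : 6 < n)))
  obtain ⟨e, he⟩ := exists_fresh (α := Fin n) {a, b, c, x, y, z, u}
    (lt_of_le_of_lt ((Finset.card_insert_le _ _).trans (Nat.succ_le_succ Finset.card_le_six))
      (by simpa using (by omega : 7 < n)))
  simp only [Finset.mem_insert, Finset.mem_singleton, not_or] at hu he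
  obtain ⟨ua, ub, uc, ux, uy, uz⟩ := hu
  obtain ⟨ea, eb, ec, ex, ey, ez, eu⟩ := he
  obtain ⟨d1, d2, d3⟩ := d'
  have hu' : u ∉ [a, b, c] := by simp [ua, ub, uc]
  have he' : e ∉ [a, b, c] := by simp [ea, eb, ec]
  have h1 : Dist y u x := ⟨Ne.symm uy, ux, d1.symm⟩
  have h2 : Dist x z e := ⟨d3, Ne.symm ez, Ne.symm ex⟩
  have r1 : Dist u x y := ⟨ux, d1, uy⟩
  have r2 : Dist e x z := ⟨ex, d3, ez⟩
  have cX : Commute (V.valH U f (cyc a b c d)) (V.valH U' f' (cyc y u x h1)) := by
    rw [cyc_rotate y u x h1 r1]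
    refine V.comm_one U U' hf hf' d r1 hu' hx fun w hw hw' => ?_
    simp only [List.mem_cons, List.not_mem_nil, or_false] at hw'
    rcases hw' with rfl | rfl | rfl
    exacts [absurd hw hu', hd _ hw (by simp), hd _ hw (by simp)]
  have cY : Commute (V.valH U f (cyc a b c d)) (V.valH U' f' (cyc x z e h2)) := by
    rw [← cyc_rotate e x z r2 h2]
    refine V.comm_one U U' hf hf' d r2 he' hx fun w hw hw' => ?_
    simp only [List.mem_cons, List.not_mem_nil, or_false] at hw'
    rcases hw' with rfl | rfl | rfl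
    exacts [absurd hw he', hd _ hw (by simp), hd _ hw (by simp)]
  rw [V.valH_commutator U' f' h1 h2 ⟨d1, d2, d3⟩ (Ne.symm ey) uz (Ne.symm eu), commutatorElement_def]
  exact ((cX.mul_right cY).mul_right cX.inv_right).mul_right cY.inv_right

/-- Values on sets disjoint at every shared colour commute. -/
theorem comm_val (U U' : Clo Pts) {f f' : Fin n → Lat} (hf : ∑ x, f x = 0) (hf' : ∑ x, f' x = 0)
    {a b c x y z : Fin n} (d : Dist a b c) (d' : Dist x y z)
    (hd : Apart3 U U' f f' a b c x y z) :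
    Commute (V.valH U f (cyc a b c d)) (V.valH U' f' (cyc x y z d')) := by
  have hn := V.eight_le
  obtain ⟨u, hu⟩ := exists_fresh (α := Fin n) {a, b, c, x, y, z}
    (lt_of_le_of_lt Finset.card_le_six (by simpa using (by omega : 6 < n)))
  obtain ⟨e, he⟩ := exists_fresh (α := Fin n) {a, b, c, x, y, z, u}
    (lt_of_le_of_lt ((Finset.card_insert_le _ _).trans (Nat.succ_le_succ Finset.card_le_six))
      (by simpa using (by omega : 7 < n)))
  simp only [Finset.mem_insert, Finset.mem_singleton, not_or] at hu he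
  obtain ⟨ua, ub, uc, ux, uy, uz⟩ := hu
  obtain ⟨ea, eb, ec, ex, ey, ez, eu⟩ := he
  obtain ⟨d1, d2, d3⟩ := d'
  have hu' : u ∉ [a, b, c] := by simp [ua, ub, uc]
  have he' : e ∉ [a, b, c] := by simp [ea, eb, ec]
  have h1 : Dist y u x := ⟨Ne.symm uy, ux, d1.symm⟩
  have h2 : Dist x z e := ⟨d3, Ne.symm ez, Ne.symm ex⟩
  have r1 : Dist u x y := ⟨ux, d1, uy⟩
  have r2 : Dist e x z := ⟨ex, d3, ez⟩
  have cX : Commute (V.valH U f (cyc a b c d)) (V.valH U' f' (cyc y u x h1)) := by
    rw [cyc_rotate y u x h1 r1]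
    refine V.comm_two U U' hf hf' d r1 hu' fun w hw hw' => ?_
    simp only [List.mem_cons, List.not_mem_nil, or_false] at hw'
    rcases hw' with rfl | rfl | rfl
    exacts [absurd hw hu', hd _ hw (by simp), hd _ hw (by simp)]
  have cY : Commute (V.valH U f (cyc a b c d)) (V.valH U' f' (cyc x z e h2)) := by
    rw [← cyc_rotate e x z r2 h2]
    refine V.comm_two U U' hf hf' d r2 he' fun w hw hw' => ?_
    simp only [List.mem_cons, List.not_mem_nil, or_false] at hw'
    rcases hw' with rfl | rfl | rfl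
    exacts [absurd hw he', hd _ hw (by simp), hd _ hw (by simp)]
  rw [V.valH_commutator U' f' h1 h2 ⟨d1, d2, d3⟩ (Ne.symm ey) uz (Ne.symm eu), commutatorElement_def]
  exact ((cX.mul_right cY).mul_right cX.inv_right).mul_right cY.inv_right

include V in
theorem exists_vec3 (g : Gen Pts n) :
    ∃ f : Fin n → Lat, ∑ x, f x = 0 ∧ ∀ x ∈ ({g.p.2, g.q.2, g.r.2} : Finset (Fin n)), f x = sec g x :=
  exists_vec _ (lt_of_le_of_lt Finset.card_le_three (by have := V.eight_le; omega)) _

/-- The value of a generator. -/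
noncomputable def phi (g : Gen Pts n) : Q :=
  V.valH g.U (V.exists_vec3 g).choose (cyc g.p.2 g.q.2 g.r.2 g.tri)

theorem phi_spec (g : Gen Pts n) (f : Fin n → Lat) (hf : ∑ x, f x = 0) (hp : f g.p.2 = g.p.1)
    (hq : f g.q.2 = g.q.1) (hr : f g.r.2 = g.r.1) :
    V.phi g = A.lam f * V.E g.U (cyc g.p.2 g.q.2 g.r.2 g.tri) * (A.lam f)⁻¹ := by
  obtain ⟨h1, h2⟩ := (V.exists_vec3 g).choose_spec
  refine V.valH_congr g.U h1 hf g.tri ?_ ?_ ?_
  · rw [h2 _ (by simp), hp]; simp [sec]
  · rw [h2 _ (by simp), hq]; simp [sec, g.tri.1.symm]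
  · rw [h2 _ (by simp), hr]; simp [sec, g.tri.2.1.symm, g.tri.2.2.symm]

include V in
theorem exists_fit (g : Gen Pts n) :
    ∃ f : Fin n → Lat, ∑ x, f x = 0 ∧ f g.p.2 = g.p.1 ∧ f g.q.2 = g.q.1 ∧ f g.r.2 = g.r.1 := by
  obtain ⟨f, hf, h⟩ := V.exists_vec3 g
  refine ⟨f, hf, ?_, ?_, ?_⟩
  · rw [h _ (by simp)]; simp [sec]
  · rw [h _ (by simp)]; simp [sec, g.tri.1.symm]
  · rw [h _ (by simp)]; simp [sec, g.tri.2.1.symm, g.tri.2.2.symm]

theorem phi_add (g : Gen Pts n) (U W : Clo Pts) (hd : Disjoint (U : Set Pts) (W : Set Pts))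
    (hu : (g.U : Set Pts) = (U : Set Pts) ∪ (W : Set Pts)) :
    V.phi g = V.phi (g.withU U) * V.phi (g.withU W) := by
  obtain ⟨f, hf, hp, hq, hr⟩ := V.exists_fit g
  have e : g.U = U ⊔ W := TopologicalSpace.Clopens.ext hu
  rw [V.phi_spec g f hf hp hq hr, V.phi_spec (g.withU U) f hf hp hq hr,
    V.phi_spec (g.withU W) f hf hp hq hr, e, V.union U W hd]
  simp only [Gen.withU]
  group

theorem phi_move (g : Gen Pts n) (v : Lat) : V.phi (g.move sys v) = V.phi g := by
  obtain ⟨f, hf, hp, hq, hr⟩ := V.exists_fit g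
  obtain ⟨k, hk, hkl⟩ := Amp.exists_transl_list v [g.p.2, g.q.2, g.r.2]
    (by simp only [List.length_cons, List.length_nil]; have := V.eight_le; omega)
  have hfk : ∑ x, (f - k) x = 0 := by simp [Finset.sum_sub_distrib, hf, hk]
  rw [V.phi_spec (g.move sys v) (f - k) hfk (by simp [Gen.move, hp, hkl g.p.2])
    (by simp [Gen.move, hq, hkl g.q.2]) (by simp [Gen.move, hr, hkl g.r.2]),
    V.phi_spec g f hf hp hq hr]
  have hs := V.translate g.U (g.move sys v).U v rfl g.p.2 g.q.2 g.r.2 g.tri k hk (hkl _ (by simp))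
    (hkl _ (by simp)) (hkl _ (by simp))
  simp only [Gen.move] at hs ⊢
  rw [hs, show A.lam f = A.lam (f - k) * A.lam k by rw [← A.lam_add (f - k) k hfk hk, sub_add_cancel]]
  group

theorem phi_shift (g h : Gen Pts n) (v : Lat) (hU : (h.U : Set Pts) = sys.translate v g.U)
    (hp : h.p = (g.p.1 - v, g.p.2)) (hq : h.q = (g.q.1 - v, g.q.2))
    (hr : h.r = (g.r.1 - v, g.r.2)) : V.phi h = V.phi g := by
  rw [← V.phi_move g v]
  exact congrArg V.phi (Gen.eq_mk hU hp hq hr)

theorem phi_comm (g h : Gen Pts n) (hd : Disjoint (g.supp sys) (h.supp sys)) :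
    Commute (V.phi g) (V.phi h) := by
  obtain ⟨f, hf, hp, hq, hr⟩ := V.exists_fit g
  obtain ⟨f', hf', hp', hq', hr'⟩ := V.exists_fit h
  rw [V.phi_spec g f hf hp hq hr, V.phi_spec h f' hf' hp' hq' hr']
  refine V.comm_val g.U h.U hf hf' g.tri h.tri fun x hx hx' => ?_
  refine Set.disjoint_left.2 fun w hw hw' => ?_
  rw [Sys.mem_translate] at hw hw'
  simp only [List.mem_cons, List.not_mem_nil, or_false] at hx hx'
  have h0 := Set.disjoint_left.1 hd
  refine h0 (a := (w, x)) ((Gen.mem_supp_iff _ _).2 ?_) ((Gen.mem_supp_iff _ _).2 ?_)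
  · rcases hx with rfl | rfl | rfl
    exacts [⟨g.p, Or.inl rfl, rfl, hp ▸ hw⟩, ⟨g.q, Or.inr (Or.inl rfl), rfl, hq ▸ hw⟩,
      ⟨g.r, Or.inr (Or.inr rfl), rfl, hr ▸ hw⟩]
  · rcases hx' with rfl | rfl | rfl
    exacts [⟨h.p, Or.inl rfl, rfl, hp' ▸ hw'⟩, ⟨h.q, Or.inr (Or.inl rfl), rfl, hq' ▸ hw'⟩,
      ⟨h.r, Or.inr (Or.inr rfl), rfl, hr' ▸ hw'⟩]

end Valuation

end Vale.Agent.P196.Full.Lift
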