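import Vale.Agent.P196.Full.Lift.Central.Sigma

/-!
# P196: from three colours to all triples of a coloured set

Elements attached to the triples with three colours of `L × Fin n`, multiplying and conjugating as
three-cycles wherever the colours allow, extend to all triples with all relations of the alternating
group. The extension is by nested commutators through spare colours; its equivariance carries every
relation to points of distinct colours.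
-/

namespace Vale.Agent.P196.Full.Lift.Ext

open scoped commutatorElement

variable {n : ℕ} {L : Type*} {G : Type*} [Group G]

/-- Three points of three colours. -/
def Tri (a b c : L × Fin n) : Prop := D3 a.2 b.2 c.2

theorem Tri.d3 {a b c : L × Fin n} (h : Tri a b c) : D3 a b c :=
  ⟨fun e => h.1 (by rw [e]), fun e => h.2.1 (by rw [e]), fun e => h.2.2 (by rw [e])⟩

theorem Tri.rotate {a b c : L × Fin n} (h : Tri a b c) : Tri b c a := D3.rotate h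

theorem Tri.flip {a b c : L × Fin n} (h : Tri a b c) : Tri a c b := D3.flip h

theorem Tri.inj {a b c p q : L × Fin n} (h : Tri a b c) (hp : p = a ∨ p = b ∨ p = c)
    (hq : q = a ∨ q = b ∨ q = c) (e : p.2 = q.2) : p = q := by
  obtain ⟨h1, h2, h3⟩ := h
  rcases hp with rfl | rfl | rfl <;> rcases hq with rfl | rfl | rfl <;>
    first
      | rfl
      | exact absurd e h1 | exact absurd e.symm h1
      | exact absurd e h2 | exact absurd e.symm h2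
      | exact absurd e h3 | exact absurd e.symm h3

/-- Two triples meet in every shared colour, or in none. -/
def Nice (a b c x y z : L × Fin n) : Prop :=
  (∀ p q, (p = a ∨ p = b ∨ p = c) → (q = x ∨ q = y ∨ q = z) → p.2 = q.2 → p = q) ∨
    (∀ p q, (p = a ∨ p = b ∨ p = c) → (q = x ∨ q = y ∨ q = z) → p ≠ q)

/-- Outside the colours of a triple. -/
def Off (a b c q : L × Fin n) : Prop := q.2 ≠ a.2 ∧ q.2 ≠ b.2 ∧ q.2 ≠ c.2

theorem Off.ne {a b c q : L × Fin n} (h : Off a b c q) : q ≠ a ∧ q ≠ b ∧ q ≠ c :=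
  ⟨fun e => h.1 (by rw [e]), fun e => h.2.1 (by rw [e]), fun e => h.2.2 (by rw [e])⟩

theorem Off.not_col {a b c p q : L × Fin n} (h : Off a b c q) (hp : p = a ∨ p = b ∨ p = c) :
    p.2 ≠ q.2 := by
  rcases hp with rfl | rfl | rfl
  exacts [h.1.symm, h.2.1.symm, h.2.2.symm]

theorem nice_same {a b c x y z : L × Fin n} (h : Tri a b c)
    (hq : ∀ q, (q = x ∨ q = y ∨ q = z) → (q = a ∨ q = b ∨ q = c) ∨ Off a b c q) :
    Nice a b c x y z :=
  Or.inl fun _p q hp hq' e => (hq q hq').elim (fun h' => h.inj hp h' e)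
    fun h' => absurd e (h'.not_col hp)

theorem nice_single {a b c x y z : L × Fin n} (h : Tri a b c) (x₀ : L × Fin n)
    (hq : ∀ q, (q = x ∨ q = y ∨ q = z) → q = x₀ ∨ Off a b c q) : Nice a b c x y z := by
  by_cases h0 : x₀ = a ∨ x₀ = b ∨ x₀ = c
  · exact nice_same h fun q hq' => (hq q hq').imp_left fun e => by rw [e]; exact h0
  · refine Or.inr fun p q hp hq' e => ?_
    rcases hq q hq' with rfl | h'
    · exact h0 (e ▸ hp)
    · exact h'.not_col hp (by rw [e])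

variable [DecidableEq L]

/-- The rules on triples of three colours. -/
structure Rules (T : L × Fin n → L × Fin n → L × Fin n → G) : Prop where
  rot : ∀ {a b c}, Tri a b c → T a b c = T b c a
  inv : ∀ {a b c}, Tri a b c → (T a b c)⁻¹ = T a c b
  cube : ∀ {a b c}, Tri a b c → T a b c * T a b c = T a c b
  mul : ∀ {a b c d}, Tri a b c → Off a b c d → T a b d * T b c d = T a b c
  conj : ∀ {a b c x y z}, Tri a b c → Tri x y z → Nice a b c x y z →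
    T a b c * T x y z * (T a b c)⁻¹ = T (cyc3 a b c x) (cyc3 a b c y) (cyc3 a b c z)

/-- The pivot has a colour of its own. -/
def Piv (c a d : L × Fin n) : Prop := c.2 ≠ a.2 ∧ c.2 ≠ d.2 ∧ a ≠ d

/-- Spare colours. -/
def Aux5 (c a d b e : L × Fin n) : Prop := Aux c.2 a.2 d.2 b.2 e.2

theorem exists_pt (l₀ : L) (s : Finset (Fin n)) (hs : s.card < n) : ∃ z : L × Fin n, z.2 ∉ s := by
  obtain ⟨z, hz⟩ := exists_fresh s (by simpa using hs)
  exact ⟨(l₀, z), hz⟩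

theorem exists_aux5 (hn : 8 ≤ n) (l₀ : L) (c a d : L × Fin n) : ∃ b e, Aux5 c a d b e := by
  obtain ⟨b, e, h⟩ := exists_aux (α := Fin n) (by simpa using hn) c.2 a.2 d.2
  exact ⟨(l₀, b), (l₀, e), h⟩

/-- A value that may be changed in either spare colour separately is constant. -/
theorem transit (hn : 8 ≤ n) (l₀ : L) {c a d : L × Fin n} (F : L × Fin n → L × Fin n → G)
    (hb : ∀ b b' e, Aux5 c a d b e → Aux5 c a d b' e → b.2 ≠ b'.2 → F b e = F b' e)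
    (he : ∀ b e e', Aux5 c a d b e → Aux5 c a d b e' → e.2 ≠ e'.2 → F b e = F b e')
    {b e b' e' : L × Fin n} (h : Aux5 c a d b e) (h' : Aux5 c a d b' e') : F b e = F b' e' := by
  obtain ⟨z, hz⟩ := exists_pt l₀ {c.2, a.2, d.2, b.2, e.2, b'.2, e'.2}
    (lt_of_le_of_lt ((Finset.card_insert_le _ _).trans (Nat.succ_le_succ Finset.card_le_six))
      (by omega))
  simp only [Finset.mem_insert, Finset.mem_singleton, not_or] at hz
  obtain ⟨w, hw⟩ := exists_pt l₀ {c.2, a.2, d.2, z.2, e.2, e'.2}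
    (lt_of_le_of_lt Finset.card_le_six (by omega))
  simp only [Finset.mem_insert, Finset.mem_singleton, not_or] at hw
  have hzn : z.2 ≠ c.2 ∧ z.2 ≠ a.2 ∧ z.2 ≠ d.2 := ⟨hz.1, hz.2.1, hz.2.2.1⟩
  have hwn : w.2 ≠ c.2 ∧ w.2 ≠ a.2 ∧ w.2 ≠ d.2 := ⟨hw.1, hw.2.1, hw.2.2.1⟩
  have a1 : Aux5 c a d z e := ⟨hzn, h.2.1, hz.2.2.2.2.1⟩
  have a2 : Aux5 c a d z w := ⟨hzn, hwn, Ne.symm hw.2.2.2.1⟩
  have a3 : Aux5 c a d z e' := ⟨hzn, h'.2.1, hz.2.2.2.2.2.2⟩
  rw [hb _ _ _ h a1 (Ne.symm hz.2.2.2.1), he _ _ _ a1 a2 (Ne.symm hw.2.2.2.2.1),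
    he _ _ _ a2 a3 hw.2.2.2.2.2, hb _ _ _ a3 h' hz.2.2.2.2.2.1]

theorem cyc3_col (u v k x : L × Fin n) :
    (cyc3 u v k x).2 = x.2 ∨ (cyc3 u v k x).2 = u.2 ∨ (cyc3 u v k x).2 = v.2 ∨
      (cyc3 u v k x).2 = k.2 := by
  simp only [cyc3, Equiv.Perm.mul_apply, Equiv.swap_apply_def]
  split_ifs <;> simp

theorem commutator_mul_right_of_commute {x m y : G} (h : Commute m y) :
    ⁅x * m, y⁆ = ⁅x, y⁆ := by
  simp only [commutatorElement_def, mul_inv_rev]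
  calc x * m * y * (m⁻¹ * x⁻¹) * y⁻¹ = x * (m * y) * m⁻¹ * x⁻¹ * y⁻¹ := by group
    _ = _ := by rw [h.eq]; group

theorem conj_commutator (p r g : G) :
    ⁅p, r⁆ * g * ⁅p, r⁆⁻¹ = p * (r * (p⁻¹ * (r⁻¹ * g * r⁻¹⁻¹) * p⁻¹⁻¹) * r⁻¹) * p⁻¹ := by
  simp only [commutatorElement_def]; group

variable {T : L × Fin n → L × Fin n → L × Fin n → G}

/-- The commutator giving a two-coloured cycle. -/
def N1 (T : L × Fin n → L × Fin n → L × Fin n → G) (c a d b e : L × Fin n) : G :=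
  ⁅T a b c, T c d e⁆

theorem N1_changeb (hT : Rules T) {c a d b b' e : L × Fin n} (h : Piv c a d)
    (hb : Aux5 c a d b e) (hb' : Aux5 c a d b' e) (hne : b.2 ≠ b'.2) :
    N1 T c a d b e = N1 T c a d b' e := by
  obtain ⟨⟨b1, b2, b3⟩, ⟨e1, e2, e3⟩, hbe⟩ := hb
  obtain ⟨⟨c1, c2, c3⟩, -, hb'e⟩ := hb'
  have t1 : Tri c a b := ⟨h.1, Ne.symm b1, Ne.symm b2⟩
  have t2 : Tri c a b' := ⟨h.1, Ne.symm c1, Ne.symm c2⟩
  have e' : T a b c = T a b' c * T a b b' := by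
    have := hT.mul t1 (d := b') ⟨c1, c2, Ne.symm hne⟩
    rw [hT.rot t2, hT.rot t1] at this
    exact this.symm
  have tm : Tri a b b' := ⟨Ne.symm b2, Ne.symm c2, hne⟩
  have te : Tri c d e := ⟨h.2.1, Ne.symm e1, Ne.symm e3⟩
  have oc : Off a b b' c := ⟨h.1, Ne.symm b1, Ne.symm c1⟩
  have oe : Off a b b' e := ⟨e2, Ne.symm hbe, Ne.symm hb'e⟩
  have od : d ≠ a ∧ d ≠ b ∧ d ≠ b' :=
    ⟨h.2.2.symm, fun q => b3 (by rw [q]), fun q => c3 (by rw [q])⟩
  have hn : Nice a b b' c d e := Or.inr fun p q hp hq hpq => by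
    subst hpq
    rcases hq with rfl | rfl | rfl
    · exact oc.not_col hp rfl
    · rcases hp with r | r | r
      exacts [od.1 r, od.2.1 r, od.2.2 r]
    · exact oe.not_col hp rfl
  have hc := hT.conj tm te hn
  rw [cyc3_of_ne oc.ne.1 oc.ne.2.1 oc.ne.2.2, cyc3_of_ne od.1 od.2.1 od.2.2,
    cyc3_of_ne oe.ne.1 oe.ne.2.1 oe.ne.2.2] at hc
  rw [N1, N1, e', commutator_mul_right_of_commute (mul_inv_eq_iff_eq_mul.1 hc)]

theorem N1_inv (hT : Rules T) {c a d b e : L × Fin n} (h : Piv c a d) (hb : Aux5 c a d b e) :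
    (N1 T c a d b e)⁻¹ = N1 T c d a e b := by
  obtain ⟨⟨b1, b2, -⟩, ⟨e1, -, e3⟩, -⟩ := hb
  have t1 : Tri a b c := ⟨Ne.symm b2, Ne.symm h.1, b1⟩
  have t2 : Tri c d e := ⟨h.2.1, Ne.symm e1, Ne.symm e3⟩
  rw [N1, N1, commutatorElement_inv, hT.rot t2, hT.rot t1, hT.rot t1.rotate]

theorem Aux5.swap {c a d b e : L × Fin n} (h : Aux5 c a d b e) : Aux5 c d a e b :=
  ⟨⟨h.2.1.1, h.2.1.2.2, h.2.1.2.1⟩, ⟨h.1.1, h.1.2.2, h.1.2.1⟩, h.2.2.symm⟩

theorem Piv.swap {c a d : L × Fin n} (h : Piv c a d) : Piv c d a := ⟨h.2.1, h.1, h.2.2.symm⟩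

theorem N1_const (hn : 8 ≤ n) (hT : Rules T) {c a d b e b' e' : L × Fin n} (h : Piv c a d)
    (hb : Aux5 c a d b e) (hb' : Aux5 c a d b' e') : N1 T c a d b e = N1 T c a d b' e' :=
  transit hn c.1 (N1 T c a d) (fun _ _ _ => N1_changeb hT h)
    (fun b e e' h1 h2 hne => inv_injective (by
      rw [N1_inv hT h h1, N1_inv hT h h2]
      exact N1_changeb hT h.swap h1.swap h2.swap hne)) hb hb'

open Classical in
/-- The two-coloured cycle with a pivot. -/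
noncomputable def tau1 (T : L × Fin n → L × Fin n → L × Fin n → G) (c a d : L × Fin n) : G :=
  if h : ∃ be : (L × Fin n) × (L × Fin n), Aux5 c a d be.1 be.2 then
    N1 T c a d h.choose.1 h.choose.2 else 1

theorem tau1_eq (hn : 8 ≤ n) (hT : Rules T) {c a d b e : L × Fin n} (h : Piv c a d)
    (hb : Aux5 c a d b e) : tau1 T c a d = N1 T c a d b e := by
  have hex : ∃ be : (L × Fin n) × (L × Fin n), Aux5 c a d be.1 be.2 := ⟨(b, e), hb⟩
  rw [tau1, dif_pos hex]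
  exact N1_const hn hT h hex.choose_spec hb

/-- On three colours nothing changes. -/
theorem tau1_tri (hn : 8 ≤ n) (hT : Rules T) {c a d : L × Fin n} (h : Tri c a d) :
    tau1 T c a d = T c a d := by
  obtain ⟨b, e, hb⟩ := exists_aux5 hn c.1 c a d
  rw [tau1_eq hn hT ⟨h.1, h.2.1, h.d3.2.2⟩ hb]
  obtain ⟨⟨b1, b2, b3⟩, ⟨e1, e2, e3⟩, hbe⟩ := hb
  have t1 : Tri a b c := ⟨Ne.symm b2, Ne.symm h.1, b1⟩
  have t2 : Tri c d e := ⟨h.2.1, Ne.symm e1, Ne.symm e3⟩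
  have od : Off a b c d := ⟨Ne.symm h.2.2, Ne.symm b3, Ne.symm h.2.1⟩
  have oe : Off a b c e := ⟨e2, Ne.symm hbe, e1⟩
  have hc := hT.conj t1 t2 (nice_same t1 (by
    rintro q (rfl | rfl | rfl)
    exacts [Or.inl (Or.inr (Or.inr rfl)), Or.inr od, Or.inr oe]))
  rw [cyc3_trd, cyc3_of_ne od.ne.1 od.ne.2.1 od.ne.2.2,
    cyc3_of_ne oe.ne.1 oe.ne.2.1 oe.ne.2.2] at hc
  rw [N1, commutatorElement_def, hc, hT.inv t2, hT.rot t2.flip, hT.rot t2.flip.rotate,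
    hT.mul (a := a) (b := d) (c := c) (d := e) ⟨h.2.2, Ne.symm h.1, Ne.symm h.2.1⟩
      ⟨e2, e3, e1⟩, hT.rot (show Tri a d c from ⟨h.2.2, Ne.symm h.1, Ne.symm h.2.1⟩),
    hT.rot (show Tri d c a from ⟨Ne.symm h.2.1, Ne.symm h.2.2, h.1⟩)]

/-- Equivariance away from the pivot. -/
theorem tau1_conj (hn : 8 ≤ n) (hT : Rules T) {u v k c a d : L × Fin n} (hh : Tri u v k)
    (h : Piv c a d) (hc : Off u v k c) :
    T u v k * tau1 T c a d * (T u v k)⁻¹ = tau1 T c (cyc3 u v k a) (cyc3 u v k d) := by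
  obtain ⟨b, hb⟩ := exists_pt c.1 {c.2, a.2, d.2, u.2, v.2, k.2}
    (lt_of_le_of_lt Finset.card_le_six (by omega))
  obtain ⟨e, he⟩ := exists_pt c.1 {c.2, a.2, d.2, u.2, v.2, k.2, b.2}
    (lt_of_le_of_lt ((Finset.card_insert_le _ _).trans (Nat.succ_le_succ Finset.card_le_six))
      (by omega))
  simp only [Finset.mem_insert, Finset.mem_singleton, not_or] at hb he
  obtain ⟨b1, b2, b3, b4, b5, b6⟩ := hb
  obtain ⟨e1, e2, e3, e4, e5, e6, e7⟩ := he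
  have hb' : Aux5 c a d b e := ⟨⟨b1, b2, b3⟩, ⟨e1, e2, e3⟩, Ne.symm e7⟩
  have ob : Off u v k b := ⟨b4, b5, b6⟩
  have oe : Off u v k e := ⟨e4, e5, e6⟩
  have img : ∀ x : L × Fin n, ∀ y : L × Fin n, y.2 ≠ x.2 → Off u v k y →
      y.2 ≠ (cyc3 u v k x).2 := fun x y h1 h2 => by
    rcases cyc3_col u v k x with r | r | r | r <;> rw [r]
    exacts [h1, h2.1, h2.2.1, h2.2.2]
  have h' : Piv c (cyc3 u v k a) (cyc3 u v k d) :=
    ⟨img a c h.1 hc, img d c h.2.1 hc, fun q => h.2.2 ((cyc3 u v k).injective q)⟩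
  have hb'' : Aux5 c (cyc3 u v k a) (cyc3 u v k d) b e :=
    ⟨⟨b1, img a b b2 ob, img d b b3 ob⟩, ⟨e1, img a e e2 oe, img d e e3 oe⟩, Ne.symm e7⟩
  have t1 : Tri a b c := ⟨Ne.symm b2, Ne.symm h.1, b1⟩
  have t2 : Tri c d e := ⟨h.2.1, Ne.symm e1, Ne.symm e3⟩
  have n1 := hT.conj hh t1 (nice_single hh a (by
    rintro q (rfl | rfl | rfl)
    exacts [Or.inl rfl, Or.inr ob, Or.inr hc]))
  have n2 := hT.conj hh t2 (nice_single hh d (by
    rintro q (rfl | rfl | rfl)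
    exacts [Or.inr hc, Or.inl rfl, Or.inr oe]))
  rw [cyc3_of_ne ob.ne.1 ob.ne.2.1 ob.ne.2.2, cyc3_of_ne hc.ne.1 hc.ne.2.1 hc.ne.2.2] at n1
  rw [cyc3_of_ne oe.ne.1 oe.ne.2.1 oe.ne.2.2, cyc3_of_ne hc.ne.1 hc.ne.2.1 hc.ne.2.2] at n2
  rw [tau1_eq hn hT h hb', tau1_eq hn hT h' hb'', N1, N1, ← n1, ← n2]
  simp only [commutatorElement_def]; group

/-- Changing the pivot to another spare colour. -/
theorem tau1_pivot (hn : 8 ≤ n) (hT : Rules T) {b b' c a : L × Fin n} (h : Piv b c a)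
    (h' : Piv b' c a) (hne : b.2 ≠ b'.2) : tau1 T b c a = tau1 T b' c a * T a b b' := by
  obtain ⟨z, hz⟩ := exists_pt b.1 {a.2, c.2, b.2, b'.2}
    (lt_of_le_of_lt Finset.card_le_four (by omega))
  obtain ⟨x, hx⟩ := exists_pt b.1 {a.2, c.2, b.2, b'.2, z.2}
    (lt_of_le_of_lt Finset.card_le_five (by omega))
  obtain ⟨y, hy⟩ := exists_pt b.1 {a.2, c.2, b.2, b'.2, z.2, x.2}
    (lt_of_le_of_lt Finset.card_le_six (by omega))
  simp only [Finset.mem_insert, Finset.mem_singleton, not_or] at hz hx hy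
  obtain ⟨za, zc, zb, zb'⟩ := hz
  obtain ⟨xa, xc, xb, xb', xz⟩ := hx
  obtain ⟨ya, yc, yb, yb', yz, yx⟩ := hy
  obtain ⟨hbc, hba, hca⟩ := h
  obtain ⟨hb'c, hb'a, -⟩ := h'
  have hbne : b ≠ b' := fun q => hne (by rw [q])
  have N : tau1 T b' c a = ⁅T c x b', T b' a y⁆ :=
    tau1_eq hn hT ⟨hb'c, hb'a, hca⟩ ⟨⟨xb', xc, xa⟩, ⟨yb', yc, ya⟩, Ne.symm yx⟩
  have N' : tau1 T b c a = ⁅T c x b, T b a y⁆ :=
    tau1_eq hn hT ⟨hbc, hba, hca⟩ ⟨⟨xb, xc, xa⟩, ⟨yb, yc, ya⟩, Ne.symm yx⟩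
  set P := T c x b' with hP
  set R := T b' a y with hR
  have tP : Tri c x b' := ⟨Ne.symm xc, Ne.symm hb'c, xb'⟩
  have tR : Tri b' a y := ⟨hb'a, Ne.symm yb', Ne.symm ya⟩
  have iP : P⁻¹ = T c b' x := hT.inv tP
  have iR : R⁻¹ = T b' y a := hT.inv tR
  have ts : Tri b' b z := ⟨Ne.symm hne, Ne.symm zb', Ne.symm zb⟩
  -- moving the pivot
  have eσ : T b' b z * ⁅P, R⁆ * (T b' b z)⁻¹ = tau1 T b c a := by
    have oc : Off b' b z c := ⟨Ne.symm hb'c, Ne.symm hbc, Ne.symm zc⟩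
    have ox : Off b' b z x := ⟨xb', xb, xz⟩
    have oa : Off b' b z a := ⟨Ne.symm hb'a, Ne.symm hba, Ne.symm za⟩
    have oy : Off b' b z y := ⟨yb', yb, yz⟩
    have n1 := hT.conj ts tP (nice_single ts b' (by
      rintro q (rfl | rfl | rfl)
      exacts [Or.inr oc, Or.inr ox, Or.inl rfl]))
    have n2 := hT.conj ts tR (nice_single ts b' (by
      rintro q (rfl | rfl | rfl)
      exacts [Or.inl rfl, Or.inr oa, Or.inr oy]))
    rw [cyc3_of_ne oc.ne.1 oc.ne.2.1 oc.ne.2.2, cyc3_of_ne ox.ne.1 ox.ne.2.1 ox.ne.2.2,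
      cyc3_fst hbne.symm ts.d3.2.1] at n1
    rw [cyc3_of_ne oa.ne.1 oa.ne.2.1 oa.ne.2.2, cyc3_of_ne oy.ne.1 oy.ne.2.1 oy.ne.2.2,
      cyc3_fst hbne.symm ts.d3.2.1] at n2
    rw [N', ← n1, ← n2]
    simp only [commutatorElement_def, hP, hR]; group
  -- the image of the pivot move
  have eN : ⁅P, R⁆ * T b' b z * ⁅P, R⁆⁻¹ = T c b z := by
    have tR' : Tri b' y a := tR.flip
    have tP' : Tri c b' x := tP.flip
    have obz : ∀ {q}, q = b ∨ q = z → Off b' y a q := by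
      rintro q (rfl | rfl)
      exacts [⟨hne, Ne.symm yb, hba⟩, ⟨zb', Ne.symm yz, za⟩]
    have s1 : R⁻¹ * T b' b z * R⁻¹⁻¹ = T y b z := by
      rw [iR, hT.conj tR' ts (nice_single tR' b' (by
        rintro q (rfl | rfl | rfl)
        exacts [Or.inl rfl, Or.inr (obz (Or.inl rfl)), Or.inr (obz (Or.inr rfl))])),
        cyc3_fst tR'.d3.1 tR'.d3.2.1]
      obtain ⟨q1, q2, q3⟩ := (obz (Or.inl (rfl : b = b))).ne
      obtain ⟨r1, r2, r3⟩ := (obz (Or.inr (rfl : z = z))).ne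
      rw [cyc3_of_ne q1 q2 q3, cyc3_of_ne r1 r2 r3]
    have ty : Tri y b z := ⟨yb, yz, Ne.symm zb⟩
    have o2 : ∀ {q}, q = y ∨ q = b ∨ q = z → Off c b' x q := by
      rintro q (rfl | rfl | rfl)
      exacts [⟨yc, yb', yx⟩, ⟨hbc, hne, Ne.symm xb⟩, ⟨zc, zb', Ne.symm xz⟩]
    have s2 : P⁻¹ * T y b z * P⁻¹⁻¹ = T y b z := by
      rw [iP, hT.conj tP' ty (nice_same tP' fun q hq => Or.inr (o2 hq))]
      obtain ⟨p1, p2, p3⟩ := (o2 (Or.inl (rfl : y = y))).ne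
      obtain ⟨q1, q2, q3⟩ := (o2 (Or.inr (Or.inl (rfl : b = b)))).ne
      obtain ⟨r1, r2, r3⟩ := (o2 (Or.inr (Or.inr (rfl : z = z)))).ne
      rw [cyc3_of_ne p1 p2 p3, cyc3_of_ne q1 q2 q3, cyc3_of_ne r1 r2 r3]
    have o3 : ∀ {q}, q = b ∨ q = z → Off b' a y q := by
      rintro q (rfl | rfl)
      exacts [⟨hne, hba, Ne.symm yb⟩, ⟨zb', za, Ne.symm yz⟩]
    have s3 : R * T y b z * R⁻¹ = T b' b z := by
      rw [hR, hT.conj tR ty (nice_single tR y (by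
        rintro q (rfl | rfl | rfl)
        exacts [Or.inl rfl, Or.inr (o3 (Or.inl rfl)), Or.inr (o3 (Or.inr rfl))])), cyc3_trd]
      obtain ⟨q1, q2, q3⟩ := (o3 (Or.inl (rfl : b = b))).ne
      obtain ⟨r1, r2, r3⟩ := (o3 (Or.inr (rfl : z = z))).ne
      rw [cyc3_of_ne q1 q2 q3, cyc3_of_ne r1 r2 r3]
    have o4 : ∀ {q}, q = b ∨ q = z → Off c x b' q := by
      rintro q (rfl | rfl)
      exacts [⟨hbc, Ne.symm xb, hne⟩, ⟨zc, Ne.symm xz, zb'⟩]
    have s4 : P * T b' b z * P⁻¹ = T c b z := by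
      rw [hP, hT.conj tP ts (nice_single tP b' (by
        rintro q (rfl | rfl | rfl)
        exacts [Or.inl rfl, Or.inr (o4 (Or.inl rfl)), Or.inr (o4 (Or.inr rfl))])), cyc3_trd]
      obtain ⟨q1, q2, q3⟩ := (o4 (Or.inl (rfl : b = b))).ne
      obtain ⟨r1, r2, r3⟩ := (o4 (Or.inr (rfl : z = z))).ne
      rw [cyc3_of_ne q1 q2 q3, cyc3_of_ne r1 r2 r3]
    rw [conj_commutator, s1, s2, s3, s4]
  have em : tau1 T b c a = T b' b c * ⁅P, R⁆ := by
    have tc : Tri c b z := ⟨Ne.symm hbc, Ne.symm zc, Ne.symm zb⟩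
    have hm := hT.mul (a := b') (b := b) (c := c) (d := z)
      ⟨Ne.symm hne, hb'c, hbc⟩ ⟨zb', zb, zc⟩
    have ei : T b c z = (T c b z)⁻¹ := by
      rw [hT.inv tc, hT.rot (show Tri b c z from ⟨hbc, Ne.symm zb, Ne.symm zc⟩)]
    rw [← eσ, ← hm, ei, ← eN]
    group
  -- the correction seen from the other side
  have ec : ⁅P, R⁆⁻¹ * T b' b c * ⁅P, R⁆⁻¹⁻¹ = T a b b' := by
    rw [commutatorElement_inv, conj_commutator]
    have t0 : Tri b' b c := ⟨Ne.symm hne, hb'c, hbc⟩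
    have tP' : Tri c b' x := tP.flip
    have o1 : Off c b' x b := ⟨hbc, hne, Ne.symm xb⟩
    have s1 : P⁻¹ * T b' b c * P⁻¹⁻¹ = T x b b' := by
      rw [iP, hT.conj tP' t0 (nice_same tP' (by
        rintro q (rfl | rfl | rfl)
        exacts [Or.inl (Or.inr (Or.inl rfl)), Or.inr o1, Or.inl (Or.inl rfl)]))]
      rw [cyc3_snd tP'.d3.2.1 tP'.d3.2.2, cyc3_of_ne o1.ne.1 o1.ne.2.1 o1.ne.2.2,
        cyc3_fst tP'.d3.1 tP'.d3.2.1]
    have tR' : Tri b' y a := tR.flip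
    have tx : Tri x b b' := ⟨xb, xb', hne⟩
    have ox : Off b' y a x := ⟨xb', Ne.symm yx, xa⟩
    have ob : Off b' y a b := ⟨hne, Ne.symm yb, hba⟩
    have s2 : R⁻¹ * T x b b' * R⁻¹⁻¹ = T x b y := by
      rw [iR, hT.conj tR' tx (nice_single tR' b' (by
        rintro q (rfl | rfl | rfl)
        exacts [Or.inr ox, Or.inr ob, Or.inl rfl])), cyc3_of_ne ox.ne.1 ox.ne.2.1 ox.ne.2.2,
        cyc3_of_ne ob.ne.1 ob.ne.2.1 ob.ne.2.2, cyc3_fst tR'.d3.1 tR'.d3.2.1]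
    have ty : Tri x b y := ⟨xb, Ne.symm yx, Ne.symm yb⟩
    have ob3 : Off c x b' b := ⟨hbc, Ne.symm xb, hne⟩
    have oy : Off c x b' y := ⟨yc, yx, yb'⟩
    have s3 : P * T x b y * P⁻¹ = T b' b y := by
      rw [hP, hT.conj tP ty (nice_single tP x (by
        rintro q (rfl | rfl | rfl)
        exacts [Or.inl rfl, Or.inr ob3, Or.inr oy])), cyc3_snd tP.d3.2.1 tP.d3.2.2,
        cyc3_of_ne ob3.ne.1 ob3.ne.2.1 ob3.ne.2.2, cyc3_of_ne oy.ne.1 oy.ne.2.1 oy.ne.2.2]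
    have t3 : Tri b' b y := ⟨Ne.symm hne, Ne.symm yb', Ne.symm yb⟩
    have ob4 : Off b' a y b := ⟨hne, hba, Ne.symm yb⟩
    have s4 : R * T b' b y * R⁻¹ = T a b b' := by
      rw [hR, hT.conj tR t3 (nice_same tR (by
        rintro q (rfl | rfl | rfl)
        exacts [Or.inl (Or.inl rfl), Or.inr ob4, Or.inl (Or.inr (Or.inr rfl))])),
        cyc3_fst tR.d3.1 tR.d3.2.1, cyc3_of_ne ob4.ne.1 ob4.ne.2.1 ob4.ne.2.2, cyc3_trd]
    rw [s1, s2, s3, s4]
  rw [N, em, ← ec]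
  group

/-- The commutator giving any cycle. -/
noncomputable def N2 (T : L × Fin n → L × Fin n → L × Fin n → G) (c a d b e : L × Fin n) : G :=
  ⁅tau1 T b c a, tau1 T e c d⁆

theorem N2_changeb (hn : 8 ≤ n) (hT : Rules T) {c a d b b' e : L × Fin n} (h : D3 c a d)
    (hb : Aux5 c a d b e) (hb' : Aux5 c a d b' e) (hne : b.2 ≠ b'.2) :
    N2 T c a d b e = N2 T c a d b' e := by
  obtain ⟨⟨b1, b2, b3⟩, ⟨e1, e2, e3⟩, hbe⟩ := hb
  obtain ⟨⟨c1, c2, c3⟩, -, hb'e⟩ := hb'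
  have hp := tau1_pivot hn hT (b := b) (b' := b') (c := c) (a := a) ⟨b1, b2, h.1⟩ ⟨c1, c2, h.1⟩ hne
  have hc := tau1_conj hn hT (u := a) (v := b) (k := b') (c := e) (a := c) (d := d)
    ⟨Ne.symm b2, Ne.symm c2, hne⟩ ⟨e1, e3, h.2.1⟩ ⟨e2, Ne.symm hbe, Ne.symm hb'e⟩
  rw [cyc3_of_ne h.1 (fun q => b1 (by rw [q])) (fun q => c1 (by rw [q])),
    cyc3_of_ne h.2.2.symm (fun q => b3 (by rw [q])) (fun q => c3 (by rw [q]))] at hc
  rw [N2, N2, hp, commutator_mul_right_of_commute (mul_inv_eq_iff_eq_mul.1 hc)]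

theorem N2_const (hn : 8 ≤ n) (hT : Rules T) {c a d b e b' e' : L × Fin n} (h : D3 c a d)
    (hb : Aux5 c a d b e) (hb' : Aux5 c a d b' e') : N2 T c a d b e = N2 T c a d b' e' :=
  transit hn c.1 (N2 T c a d) (fun _ _ _ => N2_changeb hn hT h)
    (fun b e e' h1 h2 hne => inv_injective (by
      rw [N2, N2, commutatorElement_inv, commutatorElement_inv]
      exact N2_changeb hn hT ⟨h.2.1, h.1, h.2.2.symm⟩ h1.swap h2.swap hne)) hb hb'

open Classical in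
/-- The extension to every triple. -/
noncomputable def tau2 (T : L × Fin n → L × Fin n → L × Fin n → G) (c a d : L × Fin n) : G :=
  if h : ∃ be : (L × Fin n) × (L × Fin n), Aux5 c a d be.1 be.2 then
    N2 T c a d h.choose.1 h.choose.2 else 1

theorem tau2_eq (hn : 8 ≤ n) (hT : Rules T) {c a d b e : L × Fin n} (h : D3 c a d)
    (hb : Aux5 c a d b e) : tau2 T c a d = N2 T c a d b e := by
  have hex : ∃ be : (L × Fin n) × (L × Fin n), Aux5 c a d be.1 be.2 := ⟨(b, e), hb⟩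
  rw [tau2, dif_pos hex]
  exact N2_const hn hT h hex.choose_spec hb

theorem tau2_tri (hn : 8 ≤ n) (hT : Rules T) {c a d : L × Fin n} (h : Tri c a d) :
    tau2 T c a d = T c a d := by
  obtain ⟨b, e, hb⟩ := exists_aux5 hn c.1 c a d
  have hp : Piv c a d := ⟨h.1, h.2.1, h.d3.2.2⟩
  rw [tau2_eq hn hT h.d3 hb, ← tau1_tri hn hT h, tau1_eq hn hT hp hb]
  obtain ⟨⟨b1, b2, b3⟩, ⟨e1, e2, e3⟩, hbe⟩ := hb
  have t1 : Tri b c a := ⟨b1, b2, h.1⟩
  have t2 : Tri e c d := ⟨e1, e3, h.2.1⟩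
  rw [N2, N1, tau1_tri hn hT t1, tau1_tri hn hT t2, hT.rot t1, hT.rot t1.rotate, hT.rot t2]

theorem tau2_conj (hn : 8 ≤ n) (hT : Rules T) {u v k c a d : L × Fin n} (hh : Tri u v k)
    (h : D3 c a d) :
    T u v k * tau2 T c a d * (T u v k)⁻¹ =
      tau2 T (cyc3 u v k c) (cyc3 u v k a) (cyc3 u v k d) := by
  obtain ⟨b, hb⟩ := exists_pt c.1 {c.2, a.2, d.2, u.2, v.2, k.2}
    (lt_of_le_of_lt Finset.card_le_six (by omega))
  obtain ⟨e, he⟩ := exists_pt c.1 {c.2, a.2, d.2, u.2, v.2, k.2, b.2}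
    (lt_of_le_of_lt ((Finset.card_insert_le _ _).trans (Nat.succ_le_succ Finset.card_le_six))
      (by omega))
  simp only [Finset.mem_insert, Finset.mem_singleton, not_or] at hb he
  obtain ⟨b1, b2, b3, b4, b5, b6⟩ := hb
  obtain ⟨e1, e2, e3, e4, e5, e6, e7⟩ := he
  have img : ∀ x : L × Fin n, ∀ y : L × Fin n, y.2 ≠ x.2 → Off u v k y →
      y.2 ≠ (cyc3 u v k x).2 := fun x y h1 h2 => by
    rcases cyc3_col u v k x with r | r | r | r <;> rw [r]
    exacts [h1, h2.1, h2.2.1, h2.2.2]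
  have ob : Off u v k b := ⟨b4, b5, b6⟩
  have oe : Off u v k e := ⟨e4, e5, e6⟩
  rw [tau2_eq hn hT h ⟨⟨b1, b2, b3⟩, ⟨e1, e2, e3⟩, Ne.symm e7⟩,
    tau2_eq hn hT (h.map _) (b := b) (e := e) ⟨⟨img c b b1 ob, img a b b2 ob, img d b b3 ob⟩,
      ⟨img c e e1 oe, img a e e2 oe, img d e e3 oe⟩, Ne.symm e7⟩,
    N2, N2, ← tau1_conj hn hT hh ⟨b1, b2, h.1⟩ ob, ← tau1_conj hn hT hh ⟨e1, e3, h.2.1⟩ oe]
  simp only [commutatorElement_def]; group

section Full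

variable [Fintype L]

/-- The elements that conjugate the extension as a permutation does. -/
def moves (T : L × Fin n → L × Fin n → L × Fin n → G) :
    Subgroup (G × Equiv.Perm (L × Fin n)) where
  carrier := {p | ∀ a b c, D3 a b c →
    p.1 * tau2 T a b c * p.1⁻¹ = tau2 T (p.2 a) (p.2 b) (p.2 c)}
  one_mem' := fun a b c _ => by simp
  mul_mem' := fun {p q} hp hq a b c h => by
    simp only [Set.mem_ofPred_eq] at hp hq
    rw [Prod.fst_mul, Prod.snd_mul, Equiv.Perm.mul_apply, Equiv.Perm.mul_apply,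
      Equiv.Perm.mul_apply, ← hp _ _ _ (h.map q.2), ← hq a b c h]
    group
  inv_mem' := fun {p} hp a b c h => by
    simp only [Set.mem_ofPred_eq] at hp
    have := hp (p.2⁻¹ a) (p.2⁻¹ b) (p.2⁻¹ c) (h.map p.2⁻¹)
    simp only [Equiv.Perm.inv_def, Equiv.apply_symm_apply] at this
    rw [Prod.fst_inv, Prod.snd_inv, Equiv.Perm.inv_def, ← this]
    group

theorem perm_commutator {c a d b e : L × Fin n} (h : D3 c a d)
    (hb : b ≠ c ∧ b ≠ a ∧ b ≠ d) (he : e ≠ c ∧ e ≠ a ∧ e ≠ d) (hbe : b ≠ e) :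
    ⁅cyc3 a b c, cyc3 c d e⁆ = cyc3 c a d := by
  have e1 := congrArg Subtype.val (alt3_commutator h hb he hbe)
  rw [alt3_val h] at e1
  rw [← e1, commutatorElement_def, commutatorElement_def]
  simp only [Subgroup.coe_mul, Subgroup.coe_inv,
    alt3_val (⟨hb.2.1.symm, h.1.symm, hb.1⟩ : D3 a b c),
    alt3_val (⟨h.2.1, he.1.symm, he.2.2.symm⟩ : D3 c d e)]

theorem ne_of_col {p q : L × Fin n} (h : p.2 ≠ q.2) : p ≠ q := fun e => h (by rw [e])

theorem moves_tri (hn : 8 ≤ n) (hT : Rules T) {a b c : L × Fin n} (h : Tri a b c) :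
    (T a b c, cyc3 a b c) ∈ moves T := fun _ _ _ h' => tau2_conj hn hT h h'

theorem moves_tau1 (hn : 8 ≤ n) (hT : Rules T) {c a d : L × Fin n} (h : Piv c a d) :
    (tau1 T c a d, cyc3 c a d) ∈ moves T := by
  obtain ⟨b, e, hb⟩ := exists_aux5 hn c.1 c a d
  have p := moves_tri hn hT (a := a) (b := b) (c := c) ⟨hb.1.2.1.symm, h.1.symm, hb.1.1⟩
  have q := moves_tri hn hT (a := c) (b := d) (c := e) ⟨h.2.1, hb.2.1.1.symm, hb.2.1.2.2.symm⟩
  have e' : ⁅((T a b c, cyc3 a b c) : G × Equiv.Perm (L × Fin n)), (T c d e, cyc3 c d e)⁆ =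
      (tau1 T c a d, cyc3 c a d) := by
    rw [tau1_eq hn hT h hb, ← perm_commutator (b := b) (e := e) ⟨ne_of_col h.1, ne_of_col h.2.1, h.2.2⟩
      ⟨ne_of_col hb.1.1, ne_of_col hb.1.2.1, ne_of_col hb.1.2.2⟩
      ⟨ne_of_col hb.2.1.1, ne_of_col hb.2.1.2.1, ne_of_col hb.2.1.2.2⟩ (ne_of_col hb.2.2)]
    refine Prod.ext ?_ ?_ <;> simp [commutatorElement_def, N1]
  rw [← e', commutatorElement_def]
  exact mul_mem (mul_mem (mul_mem p q) (inv_mem p)) (inv_mem q)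

theorem moves_tau2 (hn : 8 ≤ n) (hT : Rules T) {c a d : L × Fin n} (h : D3 c a d) :
    (tau2 T c a d, cyc3 c a d) ∈ moves T := by
  obtain ⟨b, e, hb⟩ := exists_aux5 hn c.1 c a d
  have p := moves_tau1 hn hT (c := b) (a := c) (d := a) ⟨hb.1.1, hb.1.2.1, h.1⟩
  have q := moves_tau1 hn hT (c := e) (a := c) (d := d) ⟨hb.2.1.1, hb.2.1.2.2, h.2.1⟩
  have nb : b ≠ c ∧ b ≠ a ∧ b ≠ d :=
    ⟨ne_of_col hb.1.1, ne_of_col hb.1.2.1, ne_of_col hb.1.2.2⟩
  have ne : e ≠ c ∧ e ≠ a ∧ e ≠ d :=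
    ⟨ne_of_col hb.2.1.1, ne_of_col hb.2.1.2.1, ne_of_col hb.2.1.2.2⟩
  have e' : ⁅((tau1 T b c a, cyc3 b c a) : G × Equiv.Perm (L × Fin n)),
      (tau1 T e c d, cyc3 e c d)⁆ = (tau2 T c a d, cyc3 c a d) := by
    rw [tau2_eq hn hT h hb, ← perm_commutator h nb ne (ne_of_col hb.2.2),
      cyc3_rotate (show D3 a b c from ⟨nb.2.1.symm, h.1.symm, nb.1⟩),
      cyc3_rotate (show D3 c d e from ⟨h.2.1, ne.1.symm, ne.2.2.symm⟩),
      cyc3_rotate (show D3 d e c from ⟨ne.2.2.symm, h.2.1.symm, ne.1⟩)]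
    refine Prod.ext ?_ ?_ <;> simp [commutatorElement_def, N2]
  rw [← e', commutatorElement_def]
  exact mul_mem (mul_mem (mul_mem p q) (inv_mem p)) (inv_mem q)

theorem exists_moves (hn : 8 ≤ n) (hT : Rules T) {σ : Equiv.Perm (L × Fin n)}
    (hσ : σ ∈ alternatingGroup (L × Fin n)) : ∃ k, (k, σ) ∈ moves T := by
  have h := alternating_le_closure_colour (n := n) (L := L) (by omega) hσ
  have h' : σ ∈ (moves T).map (MonoidHom.snd G _) := by
    refine (Subgroup.closure_le _).2 ?_ h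
    rintro _ ⟨a, b, c, h1, h2, h3, rfl⟩
    exact ⟨_, moves_tri hn hT (a := a) (b := b) (c := c) ⟨h1, h3, h2⟩, rfl⟩
  obtain ⟨⟨k, _⟩, hk, rfl⟩ := h'
  exact ⟨k, hk⟩

/-- The extension satisfies the presentation of the alternating group. -/
theorem axioms_tau2 (hn : 8 ≤ n) (hT : Rules T) (l₀ : L) : Axioms (tau2 T) := by
  have hα : 8 ≤ Fintype.card (L × Fin n) :=
    le_trans (by simpa using hn) (Fintype.card_le_of_injective (fun c : Fin n => (l₀, c))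
      fun a b e => (Prod.mk.inj e).2)
  let K : Fin 4 → L × Fin n := fun i => (l₀, i.castLE (by omega))
  have hK : Function.Injective K := fun i j e => Fin.castLE_injective _ (Prod.mk.inj e).2
  -- carry a triple or a quadruple to four colours
  have carry3 : ∀ {a b c}, D3 a b c → ∃ (k : G) (σ : Equiv.Perm (L × Fin n)), (k, σ) ∈ moves T ∧
      Tri (σ a) (σ b) (σ c) := by
    intro a b c h
    obtain ⟨w, hw⟩ := exists_alt hα (k := 3) (by omega) (f := ![a, b, c]) (g := K ∘ Fin.castSucc)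
      (by intro i j; fin_cases i <;> fin_cases j <;>
        simp [h.1, h.2.1, h.2.2, h.1.symm, h.2.1.symm, h.2.2.symm])
      (hK.comp (Fin.castSucc_injective _))
    obtain ⟨k, hk⟩ := exists_moves hn hT w.2
    refine ⟨k, _, hk, ?_⟩
    have h0 := hw 0; have h1 := hw 1; have h2 := hw 2
    simp only [Matrix.cons_val_zero, Matrix.cons_val_one, Matrix.cons_val, Function.comp_apply] at h0 h1 h2
    rw [h0, h1, h2]
    simp [Tri, D3, K, Fin.ext_iff]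
  refine ⟨fun {a b c} h => ?_, fun {a b c} h => ?_, fun {a b c} h => ?_,
    fun {a b c x y z} h h' => moves_tau2 hn hT h x y z h', fun {a b c d} h h1 h2 h3 => ?_⟩
  · obtain ⟨k, σ, hk, ht⟩ := carry3 h
    refine mul_left_cancel (a := k) (mul_right_cancel (b := k⁻¹) ?_)
    rw [hk _ _ _ h, hk _ _ _ h.rotate, tau2_tri hn hT ht, tau2_tri hn hT ht.rotate, hT.rot ht]
  · obtain ⟨k, σ, hk, ht⟩ := carry3 h
    refine mul_left_cancel (a := k) (mul_right_cancel (b := k⁻¹) ?_)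
    rw [hk _ _ _ h.flip, ← conj_inv, hk _ _ _ h, tau2_tri hn hT ht, tau2_tri hn hT ht.flip,
      hT.inv ht]
  · obtain ⟨k, σ, hk, ht⟩ := carry3 h
    refine mul_left_cancel (a := k) (mul_right_cancel (b := k⁻¹) ?_)
    rw [hk _ _ _ h.flip, ← conj_mul, hk _ _ _ h, tau2_tri hn hT ht, tau2_tri hn hT ht.flip,
      hT.cube ht]
  · obtain ⟨w, hw⟩ := exists_alt hα (k := 4) le_rfl (f := ![a, b, c, d]) (g := K)
      (D4.injective (show D4 a b c d from ⟨h, h1, h2, h3⟩)) hK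
    obtain ⟨k, hk⟩ := exists_moves hn hT w.2
    have e0 := hw 0; have e1 := hw 1; have e2 := hw 2; have e3 := hw 3
    simp only [Matrix.cons_val_zero, Matrix.cons_val_one, Matrix.cons_val] at e0 e1 e2 e3
    have q1 : Tri (K 0) (K 1) (K 3) := by simp [Tri, D3, K, Fin.ext_iff]
    have q2 : Tri (K 1) (K 2) (K 3) := by simp [Tri, D3, K, Fin.ext_iff]
    have q3 : Tri (K 0) (K 1) (K 2) := by simp [Tri, D3, K, Fin.ext_iff]
    refine mul_left_cancel (a := k) (mul_right_cancel (b := k⁻¹) ?_)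
    rw [← conj_mul, hk _ _ _ (D4.tris ⟨h, h1, h2, h3⟩).1, hk _ _ _ (D4.tris ⟨h, h1, h2, h3⟩).2.1,
      hk _ _ _ h]
    simp only [e0, e1, e2, e3]
    rw [tau2_tri hn hT q1, tau2_tri hn hT q2, tau2_tri hn hT q3,
      hT.mul q3 (by simp [Off, K, Fin.ext_iff])]

end Full

end Vale.Agent.P196.Full.Lift.Ext
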